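import Mathlib
import Crest.Prelude.Def_BoxFlow

/-!
S0170 (row 126), piece (E), analytic part: *separated atoms*.

A velocity field each of whose components is a finite sum of products
`F 0 (t) * F 1 (x 0) * F 2 (x 1) * F 3 (x 2)` of one-variable functions, where every factor comes
with its tower of derivatives (`F d m` is the `m`-th derivative of `F d 0`), is smooth and its
mixed derivatives are given by the same sums with shifted derivative orders.  `helper5`.
-/

set_option autoImplicit false

open scoped ContDiff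
open Crest.AnalysisR.BoxFlow

namespace Crest.Agent.Helper5.BF

/-- The `d`-th space-time coordinate (time first). -/
def coord (d : Fin 4) (p : ℝ × (Fin 3 → ℝ)) : ℝ := Fin.cases p.1 (fun j => p.2 j) d

@[simp] theorem coord_zero (p : ℝ × (Fin 3 → ℝ)) : coord 0 p = p.1 := rfl

@[simp] theorem coord_succ (j : Fin 3) (p : ℝ × (Fin 3 → ℝ)) : coord j.succ p = p.2 j := rfl

/-- The coordinate as a continuous linear map. -/
noncomputable def coordL (d : Fin 4) : ℝ × (Fin 3 → ℝ) →L[ℝ] ℝ :=
  Fin.cases (ContinuousLinearMap.fst ℝ ℝ (Fin 3 → ℝ))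
    (fun j => (ContinuousLinearMap.proj j).comp (ContinuousLinearMap.snd ℝ ℝ (Fin 3 → ℝ))) d

theorem coordL_apply (d : Fin 4) (p : ℝ × (Fin 3 → ℝ)) : coordL d p = coord d p := by
  refine Fin.cases ?_ (fun j => ?_) d <;> rfl

theorem direction_zero : direction 0 = ((1 : ℝ), (0 : Fin 3 → ℝ)) := by
  simp [direction]

theorem direction_succ (j : Fin 3) : direction j.succ = ((0 : ℝ), Pi.single j (1 : ℝ)) := by
  simp [direction, Fin.succ_ne_zero]

theorem coord_direction (d e : Fin 4) : coord d (direction e) = if d = e then 1 else 0 := by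
  refine Fin.cases ?_ (fun j => ?_) d <;> refine Fin.cases ?_ (fun k => ?_) e
  · simp [direction_zero]
  · simp [direction_succ, (Fin.succ_ne_zero k).symm]
  · simp [direction_zero, Fin.succ_ne_zero]
  · simp [direction_succ, Pi.single_apply, Fin.succ_inj]

/-- A tower of derivatives: `F (m + 1)` is the derivative of `F m`. -/
def DTower (F : ℕ → ℝ → ℝ) : Prop := ∀ m x, HasDerivAt (F m) (F (m + 1) x) x

theorem DTower.contDiff {F : ℕ → ℝ → ℝ} (hF : DTower F) (m : ℕ) : ContDiff ℝ ∞ (F m) := by
  rw [contDiff_infty]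
  intro n
  induction n generalizing m with
  | zero =>
    exact contDiff_zero.2 (continuous_iff_continuousAt.2 fun x => (hF m x).continuousAt)
  | succ n ih =>
    have e : ((n + 1 : ℕ) : ℕ∞ω) = (n : ℕ∞ω) + 1 := by norm_cast
    rw [e, contDiff_succ_iff_deriv]
    refine ⟨fun x => (hF m x).differentiableAt, fun h => ?_, ?_⟩
    · exact absurd h (by simp)
    · have e2 : deriv (F m) = F (m + 1) := funext fun x => (hF m x).deriv
      rw [e2]; exact ih (m + 1)

/-- Value of a separated atom with derivative orders `m`: product over the four coordinates. -/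
def atomVal (F : Fin 4 → ℕ → ℝ → ℝ) (m : Fin 4 → ℕ) (p : ℝ × (Fin 3 → ℝ)) : ℝ :=
  ∏ d : Fin 4, F d (m d) (coord d p)

theorem atomVal_eq (F : Fin 4 → ℕ → ℝ → ℝ) (m : Fin 4 → ℕ) (p : ℝ × (Fin 3 → ℝ)) :
    atomVal F m p = F 0 (m 0) p.1 * F 1 (m 1) (p.2 0) * F 2 (m 2) (p.2 1) * F 3 (m 3) (p.2 2) := by
  rw [atomVal, Fin.prod_univ_four]
  rfl

theorem atomVal_hasFDerivAt {F : Fin 4 → ℕ → ℝ → ℝ} (hF : ∀ d, DTower (F d)) (m : Fin 4 → ℕ)
    (p : ℝ × (Fin 3 → ℝ)) :
    HasFDerivAt (atomVal F m)
      (∑ e : Fin 4, (∏ d ∈ Finset.univ.erase e, F d (m d) (coord d p)) •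
        (F e (m e + 1) (coord e p) • coordL e)) p := by
  have h : ∀ e ∈ (Finset.univ : Finset (Fin 4)),
      HasFDerivAt (fun p => F e (m e) (coord e p)) (F e (m e + 1) (coord e p) • coordL e) p := by
    intro e _
    have h1 : HasFDerivAt (coord e) (coordL e) p := by
      have : coord e = coordL e := funext fun p => (coordL_apply e p).symm
      rw [this]; exact (coordL e).hasFDerivAt
    exact (hF e (m e) (coord e p)).comp_hasFDerivAt p h1
  exact HasFDerivAt.finsetProd h

theorem atomVal_contDiff {F : Fin 4 → ℕ → ℝ → ℝ} (hF : ∀ d, DTower (F d)) (m : Fin 4 → ℕ) :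
    ContDiff ℝ ∞ (atomVal F m) := by
  unfold atomVal
  apply contDiff_prod
  intro d _
  have h1 : ContDiff ℝ ∞ (coord d) := by
    have : coord d = coordL d := funext fun p => (coordL_apply d p).symm
    rw [this]; exact (coordL d).contDiff
  exact ((hF d).contDiff (m d)).comp h1

theorem atomVal_fderiv_direction {F : Fin 4 → ℕ → ℝ → ℝ} (hF : ∀ d, DTower (F d))
    (m : Fin 4 → ℕ) (p : ℝ × (Fin 3 → ℝ)) (e₀ : Fin 4) :
    fderiv ℝ (atomVal F m) p (direction e₀) = atomVal F (Function.update m e₀ (m e₀ + 1)) p := by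
  rw [(atomVal_hasFDerivAt hF m p).fderiv]
  simp only [ContinuousLinearMap.sum_apply, ContinuousLinearMap.smul_apply, coordL_apply,
    coord_direction, smul_eq_mul]
  rw [Finset.sum_eq_single e₀]
  · rw [if_pos rfl, mul_one, atomVal, ← Finset.mul_prod_erase Finset.univ _ (Finset.mem_univ e₀),
      Function.update_self, mul_comm]
    congr 1
    apply Finset.prod_congr rfl
    intro d hd
    rw [Function.update_of_ne (Finset.ne_of_mem_erase hd)]
  · intro e _ hne
    rw [if_neg hne]; ring
  · intro h; exact absurd (Finset.mem_univ _) h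

/-- The sum of the atoms of a list, as a function of the space-time point. -/
def atomSum (Ls : List (Fin 4 → ℕ → ℝ → ℝ)) (m : Fin 4 → ℕ) (p : ℝ × (Fin 3 → ℝ)) : ℝ :=
  (Ls.map fun F => atomVal F m p).sum

theorem atomSum_nil (m : Fin 4 → ℕ) (p : ℝ × (Fin 3 → ℝ)) : atomSum [] m p = 0 := rfl

theorem atomSum_cons (F : Fin 4 → ℕ → ℝ → ℝ) (Ls : List (Fin 4 → ℕ → ℝ → ℝ)) (m : Fin 4 → ℕ)
    (p : ℝ × (Fin 3 → ℝ)) : atomSum (F :: Ls) m p = atomVal F m p + atomSum Ls m p := by
  simp [atomSum]

theorem atomSum_contDiff (Ls : List (Fin 4 → ℕ → ℝ → ℝ)) (hL : ∀ F ∈ Ls, ∀ d, DTower (F d))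
    (m : Fin 4 → ℕ) : ContDiff ℝ ∞ (atomSum Ls m) := by
  induction Ls with
  | nil => exact contDiff_const
  | cons F Ls ih =>
    have e : atomSum (F :: Ls) m = fun p => atomVal F m p + atomSum Ls m p :=
      funext fun p => atomSum_cons F Ls m p
    rw [e]
    exact (atomVal_contDiff (hL F List.mem_cons_self) m).add
      (ih fun G hG => hL G (List.mem_cons_of_mem _ hG))

theorem atomSum_fderiv_direction (Ls : List (Fin 4 → ℕ → ℝ → ℝ))
    (hL : ∀ F ∈ Ls, ∀ d, DTower (F d)) (m : Fin 4 → ℕ) (p : ℝ × (Fin 3 → ℝ)) (e : Fin 4) :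
    fderiv ℝ (atomSum Ls m) p (direction e) = atomSum Ls (Function.update m e (m e + 1)) p := by
  induction Ls with
  | nil =>
    have e0 : atomSum [] m = fun _ => (0 : ℝ) := funext fun p => atomSum_nil m p
    rw [e0, atomSum_nil]
    simp
  | cons F Ls ih =>
    have hF := hL F List.mem_cons_self
    have hLs : ∀ G ∈ Ls, ∀ d, DTower (G d) := fun G hG => hL G (List.mem_cons_of_mem _ hG)
    have e1 : atomSum (F :: Ls) m = fun p => atomVal F m p + atomSum Ls m p :=
      funext fun p => atomSum_cons F Ls m p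
    have d1 : DifferentiableAt ℝ (atomVal F m) p := (atomVal_hasFDerivAt hF m p).differentiableAt
    have d2 : DifferentiableAt ℝ (atomSum Ls m) p :=
      ((atomSum_contDiff Ls hLs m).differentiable (by simp)).differentiableAt
    rw [e1, fderiv_fun_add d1 d2, ContinuousLinearMap.add_apply, atomVal_fderiv_direction hF,
      ih hLs, atomSum_cons]

/-- A field whose `j`-th component is the sum of the atoms in the list `L j`, taken with
derivative orders `m`. -/
def sepField (L : Fin 3 → List (Fin 4 → ℕ → ℝ → ℝ)) (m : Fin 4 → ℕ) : Field :=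
  fun p j => atomSum (L j) m p

theorem sepField_contDiff (L : Fin 3 → List (Fin 4 → ℕ → ℝ → ℝ))
    (hL : ∀ j, ∀ F ∈ L j, ∀ d, DTower (F d)) (m : Fin 4 → ℕ) : ContDiff ℝ ∞ (sepField L m) := by
  rw [contDiff_pi]
  intro j
  exact atomSum_contDiff (L j) (hL j) m

theorem sepField_fderiv_direction (L : Fin 3 → List (Fin 4 → ℕ → ℝ → ℝ))
    (hL : ∀ j, ∀ F ∈ L j, ∀ d, DTower (F d)) (m : Fin 4 → ℕ) (p : ℝ × (Fin 3 → ℝ)) (e : Fin 4) :
    fderiv ℝ (sepField L m) p (direction e) = sepField L (Function.update m e (m e + 1)) p := by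
  funext j
  have hd : DifferentiableAt ℝ (sepField L m) p :=
    ((sepField_contDiff L hL m).differentiable (by simp)).differentiableAt
  have h1 := fderiv_apply (𝕜 := ℝ) hd j
  have h2 : fderiv ℝ (sepField L m) p (direction e) j
      = fderiv ℝ (fun p => sepField L m p j) p (direction e) := by
    rw [h1]; rfl
  rw [h2]
  exact atomSum_fderiv_direction (L j) (hL j) m p e

/-- **Mixed derivatives of a separated field.** -/
theorem mixedDeriv_sepField (L : Fin 3 → List (Fin 4 → ℕ → ℝ → ℝ))
    (hL : ∀ j, ∀ F ∈ L j, ∀ d, DTower (F d)) (m : Fin 4 → ℕ) (ds : List (Fin 4)) :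
    mixedDeriv ds (sepField L m) = sepField L (fun d => m d + ds.count d) := by
  induction ds with
  | nil => simp [mixedDeriv]
  | cons d ds ih =>
    funext p
    simp only [mixedDeriv]
    rw [ih, sepField_fderiv_direction L hL]
    congr 1
    funext e
    by_cases h : e = d
    · subst h
      simp [List.count_cons]
      ring
    · rw [Function.update_of_ne h]
      simp [List.count_cons, Ne.symm h]

end Crest.Agent.Helper5.BF
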