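import Mathlib

/-!
S0170 (row 126), piece (E), computability part: *computable families of real numbers*.

`CompFam F` says that the real-valued family `F : α → ℝ` (indexed by a `Primcodable` type) can be
approximated by a computable rational-valued function to any precision `1/(n+1)`.  The closure
properties are proved relative to `RatComp`, the (few) computability facts about the arithmetic
of `ℚ` that are needed; these are supplied by the (Q) piece.  `helper5`.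
-/

set_option autoImplicit false

namespace Crest.Agent.Helper5.BF

/-- The computability facts about `ℚ` (with Mathlib's `Primcodable ℚ`) used by this library. -/
structure RatComp : Prop where
  add : Computable₂ ((· + ·) : ℚ → ℚ → ℚ)
  mul : Computable₂ ((· * ·) : ℚ → ℚ → ℚ)
  neg : Computable (Neg.neg : ℚ → ℚ)
  natCast : Computable (fun n : ℕ => (n : ℚ))
  natCeilAbs : Computable (fun q : ℚ => ⌈|q|⌉₊)

/-- A computable family of real numbers. -/
def CompFam {α : Type*} [Primcodable α] (F : α → ℝ) : Prop :=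
  ∃ f : α × ℕ → ℚ, Computable f ∧ ∀ a n, |F a - (f (a, n) : ℝ)| ≤ 1 / ((n : ℝ) + 1)

section

variable {α β : Type*} [Primcodable α] [Primcodable β]

theorem CompFam.of_eq {F G : α → ℝ} (hF : CompFam F) (h : ∀ a, F a = G a) : CompFam G := by
  have : F = G := funext h
  rwa [this] at hF

theorem CompFam.of_rat {g : α → ℚ} (hg : Computable g) : CompFam (fun a => (g a : ℝ)) := by
  refine ⟨fun p => g p.1, hg.comp Computable.fst, fun a n => ?_⟩
  simp only [sub_self, abs_zero]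
  positivity

theorem CompFam.const_rat (c : ℚ) : CompFam (fun _ : α => (c : ℝ)) :=
  CompFam.of_rat (Computable.const c)

theorem CompFam.comp {F : β → ℝ} (hF : CompFam F) {g : α → β} (hg : Computable g) :
    CompFam (fun a => F (g a)) := by
  obtain ⟨f, hf, h⟩ := hF
  exact ⟨fun p => f (g p.1, p.2), hf.comp ((hg.comp Computable.fst).pair Computable.snd),
    fun a n => h (g a) n⟩

theorem CompFam.neg (Q : RatComp) {F : α → ℝ} (hF : CompFam F) : CompFam (fun a => -F a) := by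
  obtain ⟨f, hf, h⟩ := hF
  refine ⟨fun p => -f p, Q.neg.comp hf, fun a n => ?_⟩
  have e : -F a - ((-f (a, n) : ℚ) : ℝ) = -(F a - (f (a, n) : ℝ)) := by push_cast; ring
  rw [e, abs_neg]
  exact h a n

theorem CompFam.add (Q : RatComp) {F G : α → ℝ} (hF : CompFam F) (hG : CompFam G) :
    CompFam (fun a => F a + G a) := by
  obtain ⟨f, hf, h1⟩ := hF
  obtain ⟨g, hg, h2⟩ := hG
  have hidx : Computable (fun p : α × ℕ => (p.1, 2 * p.2 + 1)) :=
    Computable.fst.pair (Primrec.nat_double_succ.to_comp.comp Computable.snd)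
  refine ⟨fun p => f (p.1, 2 * p.2 + 1) + g (p.1, 2 * p.2 + 1),
    Q.add.comp (hf.comp hidx) (hg.comp hidx), fun a n => ?_⟩
  have e1 := h1 a (2 * n + 1)
  have e2 := h2 a (2 * n + 1)
  have e3 : (1 : ℝ) / (((2 * n + 1 : ℕ) : ℝ) + 1) = 1 / 2 * (1 / ((n : ℝ) + 1)) := by
    push_cast; field_simp; ring
  rw [e3] at e1 e2
  have e4 : F a + G a - ((f (a, 2 * n + 1) + g (a, 2 * n + 1) : ℚ) : ℝ)
      = (F a - (f (a, 2 * n + 1) : ℝ)) + (G a - (g (a, 2 * n + 1) : ℝ)) := by push_cast; ring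
  rw [e4]
  calc |(F a - (f (a, 2 * n + 1) : ℝ)) + (G a - (g (a, 2 * n + 1) : ℝ))|
      ≤ |F a - (f (a, 2 * n + 1) : ℝ)| + |G a - (g (a, 2 * n + 1) : ℝ)| := abs_add_le _ _
    _ ≤ 1 / 2 * (1 / ((n : ℝ) + 1)) + 1 / 2 * (1 / ((n : ℝ) + 1)) := add_le_add e1 e2
    _ = 1 / ((n : ℝ) + 1) := by ring

theorem CompFam.sub (Q : RatComp) {F G : α → ℝ} (hF : CompFam F) (hG : CompFam G) :
    CompFam (fun a => F a - G a) :=
  (hF.add Q (hG.neg Q)).of_eq fun a => by ring

/-- A computable family has a computable integer bound. -/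
theorem CompFam.bound (Q : RatComp) {F : α → ℝ} (hF : CompFam F) :
    ∃ B : α → ℕ, Computable B ∧ ∀ a, |F a| ≤ (B a : ℝ) := by
  obtain ⟨f, hf, h⟩ := hF
  refine ⟨fun a => ⌈|f (a, 0)|⌉₊ + 1,
    Computable.succ.comp (Q.natCeilAbs.comp (hf.comp (Computable.id.pair (Computable.const 0)))),
    fun a => ?_⟩
  have h1 := h a 0
  have h2 : (|f (a, 0)| : ℚ) ≤ (⌈|f (a, 0)|⌉₊ : ℚ) := Nat.le_ceil _
  have h3 : (|(f (a, 0) : ℝ)|) ≤ ((⌈|f (a, 0)|⌉₊ : ℕ) : ℝ) := by
    have : ((|f (a, 0)| : ℚ) : ℝ) ≤ (((⌈|f (a, 0)|⌉₊ : ℕ) : ℚ) : ℝ) := by exact_mod_cast h2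
    simpa using this
  have h4 : |F a| ≤ |F a - (f (a, 0) : ℝ)| + |(f (a, 0) : ℝ)| := by
    have := abs_add_le (F a - (f (a, 0) : ℝ)) (f (a, 0) : ℝ)
    simpa using this
  have h5 : (1 : ℝ) / (((0 : ℕ) : ℝ) + 1) = 1 := by norm_num
  rw [h5] at h1
  push_cast
  linarith

theorem CompFam.mul (Q : RatComp) {F G : α → ℝ} (hF : CompFam F) (hG : CompFam G) :
    CompFam (fun a => F a * G a) := by
  obtain ⟨BF, hBF, hBF'⟩ := hF.bound Q
  obtain ⟨BG, hBG, hBG'⟩ := hG.bound Q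
  obtain ⟨f, hf, h1⟩ := hF
  obtain ⟨g, hg, h2⟩ := hG
  -- precision index
  have hN : Computable (fun p : α × ℕ => (p.2 + 1) * (BF p.1 + BG p.1 + 2)) := by
    have ha : Computable (fun p : α × ℕ => BF p.1 + BG p.1 + 2) :=
      Computable.succ.comp (Computable.succ.comp
        (Primrec.nat_add.to_comp.comp (hBF.comp Computable.fst) (hBG.comp Computable.fst)))
    exact Primrec.nat_mul.to_comp.comp (Computable.succ.comp Computable.snd) ha
  have hidx : Computable (fun p : α × ℕ => (p.1, (p.2 + 1) * (BF p.1 + BG p.1 + 2))) :=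
    Computable.fst.pair hN
  refine ⟨fun p => f (p.1, (p.2 + 1) * (BF p.1 + BG p.1 + 2)) *
      g (p.1, (p.2 + 1) * (BF p.1 + BG p.1 + 2)),
    Q.mul.comp (hf.comp hidx) (hg.comp hidx), fun a n => ?_⟩
  obtain ⟨N, hNdef⟩ : ∃ N : ℕ, N = (n + 1) * (BF a + BG a + 2) := ⟨_, rfl⟩
  simp only
  rw [← hNdef]
  have e1 := h1 a N
  have e2 := h2 a N
  have hN1 : (0 : ℝ) < (N : ℝ) + 1 := by positivity
  obtain ⟨ε, hε⟩ : ∃ ε : ℝ, ε = 1 / ((N : ℝ) + 1) := ⟨_, rfl⟩
  rw [← hε] at e1 e2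
  have hε0 : 0 ≤ ε := by rw [hε]; positivity
  have hε1 : ε ≤ 1 := by
    rw [hε, div_le_one hN1]
    have : (0 : ℝ) ≤ (N : ℝ) := Nat.cast_nonneg N
    linarith
  have hg1 : |(g (a, N) : ℝ)| ≤ (BG a : ℝ) + 1 := by
    have h3 : |(g (a, N) : ℝ)| ≤ |G a - (g (a, N) : ℝ)| + |G a| := by
      have := abs_sub_le (g (a, N) : ℝ) (G a) 0
      simp only [sub_zero] at this
      rw [abs_sub_comm] at this
      exact this
    linarith [hBG' a]
  have e4 : F a * G a - ((f (a, N) * g (a, N) : ℚ) : ℝ)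
      = F a * (G a - (g (a, N) : ℝ)) + (g (a, N) : ℝ) * (F a - (f (a, N) : ℝ)) := by
    push_cast; ring
  rw [e4]
  have hBF0 : (0 : ℝ) ≤ (BF a : ℝ) := Nat.cast_nonneg _
  have hBG0 : (0 : ℝ) ≤ (BG a : ℝ) := Nat.cast_nonneg _
  have hkey : ((BF a : ℝ) + (BG a : ℝ) + 1) * ε ≤ 1 / ((n : ℝ) + 1) := by
    rw [hε, le_div_iff₀ (by positivity), mul_one_div, div_mul_eq_mul_div, div_le_one hN1, hNdef]
    push_cast
    have hn0 : (0 : ℝ) ≤ (n : ℝ) := Nat.cast_nonneg n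
    nlinarith
  calc |F a * (G a - (g (a, N) : ℝ)) + (g (a, N) : ℝ) * (F a - (f (a, N) : ℝ))|
      ≤ |F a * (G a - (g (a, N) : ℝ))| + |(g (a, N) : ℝ) * (F a - (f (a, N) : ℝ))| :=
        abs_add_le _ _
    _ = |F a| * |G a - (g (a, N) : ℝ)| + |(g (a, N) : ℝ)| * |F a - (f (a, N) : ℝ)| := by
        rw [abs_mul, abs_mul]
    _ ≤ (BF a : ℝ) * ε + ((BG a : ℝ) + 1) * ε :=
        add_le_add (mul_le_mul (hBF' a) e2 (abs_nonneg _) hBF0)
          (mul_le_mul hg1 e1 (abs_nonneg _) (by linarith))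
    _ = ((BF a : ℝ) + (BG a : ℝ) + 1) * ε := by ring
    _ ≤ 1 / ((n : ℝ) + 1) := hkey

end

end Crest.Agent.Helper5.BF
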