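import Mathlib
import Crest.Prelude.Def_BoxFlow
import Crest.Agent.Helper5.BFAtoms
import Crest.Agent.Helper5.BFComp

/-!
S0170 (row 126), piece (E): *effective towers* and the effectiveness of fields that are finite
sums of separated atoms.

`Tower F` : `F m` is the `m`-th derivative of `F 0`, the values `F m q` at rational points form a
computable family and each `F m` has a computable bound.  The main theorem `effective_of_atoms`
says that a field whose components are finite sums of products of four towers (one for each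
space-time coordinate) is smooth and `Effective`, and gives its mixed derivatives.  `helper5`.
-/

set_option autoImplicit false

open scoped ContDiff
open Crest.AnalysisR.BoxFlow

namespace Crest.Agent.Helper5.BF

/-- An effective tower of derivatives. -/
structure Tower (F : ℕ → ℝ → ℝ) : Prop where
  hasDeriv : ∀ m x, HasDerivAt (F m) (F (m + 1) x) x
  comp : CompFam (fun p : ℕ × ℚ => F p.1 (p.2 : ℝ))
  bdd : ∃ B : ℕ → ℕ, Computable B ∧ ∀ m x, |F m x| ≤ (B m : ℝ)

theorem Tower.dtower {F : ℕ → ℝ → ℝ} (h : Tower F) : DTower F := h.hasDeriv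

theorem Tower.zero : Tower (fun _ _ => (0 : ℝ)) where
  hasDeriv := fun _ x => hasDerivAt_const x (0 : ℝ)
  comp := (CompFam.const_rat (α := ℕ × ℚ) 0).of_eq fun _ => by simp
  bdd := ⟨fun _ => 0, Computable.const 0, fun _ _ => by simp⟩

theorem Tower.shift {F : ℕ → ℝ → ℝ} (h : Tower F) (k : ℕ) : Tower (fun m => F (m + k)) where
  hasDeriv := fun m x => by
    have := h.hasDeriv (m + k) x
    rwa [Nat.add_right_comm] at this
  comp := h.comp.comp (g := fun p : ℕ × ℚ => (p.1 + k, p.2))
    ((Primrec.nat_add.to_comp.comp Computable.fst (Computable.const k)).pair Computable.snd)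
  bdd := by
    obtain ⟨B, hB, hB'⟩ := h.bdd
    exact ⟨fun m => B (m + k),
      hB.comp (Primrec.nat_add.to_comp.comp Computable.id (Computable.const k)),
      fun m x => hB' (m + k) x⟩

theorem Tower.add (Q : RatComp) {F G : ℕ → ℝ → ℝ} (hF : Tower F) (hG : Tower G) :
    Tower (fun m x => F m x + G m x) where
  hasDeriv := fun m x => (hF.hasDeriv m x).add (hG.hasDeriv m x)
  comp := hF.comp.add Q hG.comp
  bdd := by
    obtain ⟨B, hB, hB'⟩ := hF.bdd
    obtain ⟨C, hC, hC'⟩ := hG.bdd
    refine ⟨fun m => B m + C m, Primrec.nat_add.to_comp.comp hB hC, fun m x => ?_⟩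
    push_cast
    exact (abs_add_le _ _).trans (add_le_add (hB' m x) (hC' m x))

theorem Tower.smul (Q : RatComp) {F : ℕ → ℝ → ℝ} (hF : Tower F) (c : ℚ) :
    Tower (fun m x => (c : ℝ) * F m x) where
  hasDeriv := fun m x => (hF.hasDeriv m x).const_mul (c : ℝ)
  comp := (CompFam.const_rat (α := ℕ × ℚ) c).mul Q hF.comp
  bdd := by
    obtain ⟨B, hB, hB'⟩ := hF.bdd
    refine ⟨fun m => ⌈|c|⌉₊ * B m,
      Primrec.nat_mul.to_comp.comp (Computable.const _) hB, fun m x => ?_⟩
    have h1 : |(c : ℝ)| ≤ ((⌈|c|⌉₊ : ℕ) : ℝ) := by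
      have h2 : (|c| : ℚ) ≤ ((⌈|c|⌉₊ : ℕ) : ℚ) := Nat.le_ceil _
      have : ((|c| : ℚ) : ℝ) ≤ (((⌈|c|⌉₊ : ℕ) : ℚ) : ℝ) := by exact_mod_cast h2
      simpa using this
    rw [abs_mul]
    push_cast
    exact mul_le_mul h1 (hB' m x) (abs_nonneg _) (Nat.cast_nonneg _)

theorem Tower.neg (Q : RatComp) {F : ℕ → ℝ → ℝ} (hF : Tower F) : Tower (fun m x => -F m x) := by
  have h := hF.smul Q (-1)
  have e : (fun m x => ((-1 : ℚ) : ℝ) * F m x) = fun m x => -F m x := by
    funext m x; push_cast; ring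
  rwa [e] at h

theorem primrec_nat_pow : Primrec₂ ((· ^ ·) : ℕ → ℕ → ℕ) :=
  Primrec₂.unpaired'.1 Nat.Primrec.pow

theorem computable_rat_pow (Q : RatComp) (l : ℚ) : Computable (fun m : ℕ => l ^ m) := by
  have h : Computable (fun m : ℕ => @Nat.rec (fun _ => ℚ) (1 : ℚ) (fun _ IH => IH * l) m) :=
    Computable.nat_rec (f := fun m : ℕ => m) (g := fun _ : ℕ => (1 : ℚ))
      (h := fun (_ : ℕ) (p : ℕ × ℚ) => p.2 * l) Computable.id (Computable.const 1)
      (Q.mul.comp (Computable.snd.comp Computable.snd) (Computable.const l))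
  refine h.of_eq fun m => ?_
  induction m with
  | zero => simp
  | succ m ih => simp only [pow_succ]; rw [← ih]

/-- Affine change of variable with rational coefficients. -/
theorem Tower.comp_affine (Q : RatComp) {F : ℕ → ℝ → ℝ} (hF : Tower F) (l u : ℚ) :
    Tower (fun m x => (l : ℝ) ^ m * F m ((l : ℝ) * x + (u : ℝ))) where
  hasDeriv := fun m x => by
    have h1 : HasDerivAt (fun x : ℝ => (l : ℝ) * x + (u : ℝ)) (l : ℝ) x := by
      simpa using ((hasDerivAt_id x).const_mul (l : ℝ)).add_const (u : ℝ)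
    have h2 := (hF.hasDeriv m ((l : ℝ) * x + (u : ℝ))).comp x h1
    have h3 := h2.const_mul ((l : ℝ) ^ m)
    have e : (l : ℝ) ^ m * (F (m + 1) ((l : ℝ) * x + (u : ℝ)) * (l : ℝ))
        = (l : ℝ) ^ (m + 1) * F (m + 1) ((l : ℝ) * x + (u : ℝ)) := by ring
    rw [e] at h3
    exact h3
  comp := by
    have h1 : CompFam (fun p : ℕ × ℚ => ((l ^ p.1 : ℚ) : ℝ)) :=
      CompFam.of_rat ((computable_rat_pow Q l).comp Computable.fst)
    have h2 : CompFam (fun p : ℕ × ℚ => F p.1 (((l * p.2 + u : ℚ)) : ℝ)) :=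
      hF.comp.comp (g := fun p : ℕ × ℚ => (p.1, l * p.2 + u))
        (Computable.fst.pair (Q.add.comp (Q.mul.comp (Computable.const l) Computable.snd)
          (Computable.const u)))
    refine (h1.mul Q h2).of_eq fun p => ?_
    push_cast
    rfl
  bdd := by
    obtain ⟨B, hB, hB'⟩ := hF.bdd
    refine ⟨fun m => ⌈|l|⌉₊ ^ m * B m,
      Primrec.nat_mul.to_comp.comp
        (primrec_nat_pow.to_comp.comp (Computable.const _) Computable.id) hB, fun m x => ?_⟩
    have h1 : |(l : ℝ)| ≤ ((⌈|l|⌉₊ : ℕ) : ℝ) := by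
      have h2 : (|l| : ℚ) ≤ ((⌈|l|⌉₊ : ℕ) : ℚ) := Nat.le_ceil _
      have : ((|l| : ℚ) : ℝ) ≤ (((⌈|l|⌉₊ : ℕ) : ℚ) : ℝ) := by exact_mod_cast h2
      simpa using this
    rw [abs_mul, abs_pow]
    push_cast
    exact mul_le_mul (pow_le_pow_left₀ (abs_nonneg _) h1 m) (hB' m _) (abs_nonneg _)
      (by positivity)

/-! ### Effectiveness of separated fields -/

theorem Computable.fin_lam' {α σ : Type*} [Primcodable α] [Primcodable σ] {n : ℕ}
    {g : Fin n → α → σ} (hg : ∀ j, Computable (g j)) :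
    Computable (fun x : α => (fun j : Fin n => g j x)) := by
  have h1 := Computable.vector_ofFn hg
  exact Computable.encode_iff.1 ((Computable.encode_iff.2 h1).of_eq fun a => rfl)

theorem computable_count (d : Fin 4) : Computable (fun ds : List (Fin 4) => ds.count d) := by
  have h1 : Primrec (fun ds : List (Fin 4) => (ds.filter (fun x => x == d)).length) :=
    Primrec.list_length.comp (Primrec.listFilter (p := fun x => x = d)
      (Primrec.eq.comp Primrec.id (Primrec.const d)))
  refine h1.to_comp.of_eq fun ds => ?_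
  rw [List.count, List.countP_eq_length_filter]

theorem computable_fin_app {σ : Type*} [Primcodable σ] {n : ℕ} (j : Fin n) :
    Computable (fun q : Fin n → σ => q j) :=
  Computable.fin_app.comp Computable.id (Computable.const j)

/-- The `d`-th coordinate of a rational space-time point. -/
def coordQ (d : Fin 4) (a : ℚ × (Fin 3 → ℚ)) : ℚ := Fin.cases a.1 (fun j => a.2 j) d

theorem coordQ_cast (d : Fin 4) (a : ℚ × (Fin 3 → ℚ)) :
    ((coordQ d a : ℚ) : ℝ) = coord d ((a.1 : ℝ), ratPoint a.2) := by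
  refine Fin.cases ?_ (fun j => ?_) d <;> rfl

theorem computable_coordQ (d : Fin 4) : Computable (coordQ d) := by
  refine Fin.cases ?_ (fun j => ?_) d
  · exact Computable.fst
  · exact (computable_fin_app j).comp Computable.snd

/-- Index type of the approximation function of `Effective`, without the precision. -/
abbrev Idx : Type := List (Fin 4) × (ℚ × (Fin 3 → ℚ))

theorem compFam_atomVal (Q : RatComp) {F : Fin 4 → ℕ → ℝ → ℝ} (hF : ∀ d, Tower (F d)) :
    CompFam (fun a : Idx =>
      atomVal F (fun d => a.1.count d) ((a.2.1 : ℝ), ratPoint a.2.2)) := by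
  have hfac : ∀ d : Fin 4, CompFam (fun a : Idx =>
      F d (a.1.count d) (coord d ((a.2.1 : ℝ), ratPoint a.2.2))) := by
    intro d
    have h := (hF d).comp.comp (g := fun a : Idx => (a.1.count d, coordQ d a.2))
      (((computable_count d).comp Computable.fst).pair
        ((computable_coordQ d).comp Computable.snd))
    exact h.of_eq fun a => by rw [coordQ_cast]
  have h4 := (((hfac 0).mul Q (hfac 1)).mul Q (hfac 2)).mul Q (hfac 3)
  exact h4.of_eq fun a => by rw [atomVal, Fin.prod_univ_four]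

theorem compFam_atomSum (Q : RatComp) (Ls : List (Fin 4 → ℕ → ℝ → ℝ))
    (hL : ∀ F ∈ Ls, ∀ d, Tower (F d)) :
    CompFam (fun a : Idx =>
      atomSum Ls (fun d => a.1.count d) ((a.2.1 : ℝ), ratPoint a.2.2)) := by
  induction Ls with
  | nil => exact (CompFam.const_rat 0).of_eq fun a => by simp [atomSum]
  | cons F Ls ih =>
    exact ((compFam_atomVal Q (hL F List.mem_cons_self)).add Q
      (ih fun G hG => hL G (List.mem_cons_of_mem _ hG))).of_eq
        fun a => (atomSum_cons F Ls _ _).symm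

theorem bound_atomVal {F : Fin 4 → ℕ → ℝ → ℝ} (hF : ∀ d, Tower (F d)) :
    ∃ b : List (Fin 4) → ℕ, Computable b ∧
      ∀ (ds : List (Fin 4)) (p : ℝ × (Fin 3 → ℝ)),
        |atomVal F (fun d => ds.count d) p| ≤ (b ds : ℝ) := by
  choose B hB hB' using fun d => (hF d).bdd
  have hc : ∀ d, Computable (fun ds : List (Fin 4) => B d (ds.count d)) :=
    fun d => (hB d).comp (computable_count d)
  refine ⟨fun ds => B 0 (ds.count 0) * B 1 (ds.count 1) * B 2 (ds.count 2) * B 3 (ds.count 3),
    Primrec.nat_mul.to_comp.comp (Primrec.nat_mul.to_comp.comp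
      (Primrec.nat_mul.to_comp.comp (hc 0) (hc 1)) (hc 2)) (hc 3), fun ds p => ?_⟩
  rw [atomVal_eq, abs_mul, abs_mul, abs_mul]
  push_cast
  have h0 := hB' 0 (ds.count 0) p.1
  have h1 := hB' 1 (ds.count 1) (p.2 0)
  have h2 := hB' 2 (ds.count 2) (p.2 1)
  have h3 := hB' 3 (ds.count 3) (p.2 2)
  exact mul_le_mul (mul_le_mul (mul_le_mul h0 h1 (abs_nonneg _) (Nat.cast_nonneg _)) h2
    (abs_nonneg _) (by positivity)) h3 (abs_nonneg _) (by positivity)

theorem bound_atomSum (Ls : List (Fin 4 → ℕ → ℝ → ℝ)) (hL : ∀ F ∈ Ls, ∀ d, Tower (F d)) :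
    ∃ b : List (Fin 4) → ℕ, Computable b ∧
      ∀ (ds : List (Fin 4)) (p : ℝ × (Fin 3 → ℝ)),
        |atomSum Ls (fun d => ds.count d) p| ≤ (b ds : ℝ) := by
  induction Ls with
  | nil => exact ⟨fun _ => 0, Computable.const 0, fun ds p => by simp [atomSum]⟩
  | cons F Ls ih =>
    obtain ⟨b1, hb1, hb1'⟩ := bound_atomVal (hL F List.mem_cons_self)
    obtain ⟨b2, hb2, hb2'⟩ := ih fun G hG => hL G (List.mem_cons_of_mem _ hG)
    refine ⟨fun ds => b1 ds + b2 ds, Primrec.nat_add.to_comp.comp hb1 hb2, fun ds p => ?_⟩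
    rw [atomSum_cons]
    push_cast
    exact (abs_add_le _ _).trans (add_le_add (hb1' ds p) (hb2' ds p))

theorem effective_sepField (Q : RatComp) (L : Fin 3 → List (Fin 4 → ℕ → ℝ → ℝ))
    (hL : ∀ j, ∀ F ∈ L j, ∀ d, Tower (F d)) : Effective (sepField L 0) := by
  have hD : ∀ j, ∀ F ∈ L j, ∀ d, DTower (F d) := fun j F hF d => (hL j F hF d).dtower
  have hmix : ∀ ds : List (Fin 4),
      mixedDeriv ds (sepField L 0) = sepField L (fun d => ds.count d) := by
    intro ds
    rw [mixedDeriv_sepField L hD]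
    congr 1
    funext d
    simp
  choose f hf hfa using fun j => compFam_atomSum Q (L j) (hL j)
  choose b hb hb' using fun j => bound_atomSum (L j) (hL j)
  refine ⟨fun x => fun j => f j ((x.1, x.2.1), x.2.2), fun ds => b 0 ds + b 1 ds + b 2 ds,
    ?_, ?_, ?_, ?_⟩
  · apply Computable.fin_lam'
    intro j
    exact (hf j).comp ((Computable.fst.pair (Computable.fst.comp Computable.snd)).pair
      (Computable.snd.comp Computable.snd))
  · exact Primrec.nat_add.to_comp.comp (Primrec.nat_add.to_comp.comp (hb 0) (hb 1)) (hb 2)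
  · intro ds t q n j
    rw [hmix]
    exact hfa j (ds, (t, q)) n
  · intro ds p j
    rw [hmix]
    have h := hb' j ds p
    have h0 : (0 : ℝ) ≤ (b 0 ds : ℝ) := Nat.cast_nonneg _
    have h1 : (0 : ℝ) ≤ (b 1 ds : ℝ) := Nat.cast_nonneg _
    have h2 : (0 : ℝ) ≤ (b 2 ds : ℝ) := Nat.cast_nonneg _
    have h3 : (b j ds : ℝ) ≤ ((b 0 ds + b 1 ds + b 2 ds : ℕ) : ℝ) := by
      push_cast
      fin_cases j <;> simp <;> linarith
    exact h.trans h3

/-- **Main theorem of piece (E).**  A field whose components are finite sums of separated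
atoms built from effective towers is smooth and effective, and its mixed derivatives are the
corresponding sums of atoms with shifted derivative orders. -/
theorem effective_of_atoms (Q : RatComp) (U : Field) (L : Fin 3 → List (Fin 4 → ℕ → ℝ → ℝ))
    (hL : ∀ j, ∀ F ∈ L j, ∀ d, Tower (F d))
    (hU : ∀ p j, U p j =
      ((L j).map fun F => F 0 0 p.1 * F 1 0 (p.2 0) * F 2 0 (p.2 1) * F 3 0 (p.2 2)).sum) :
    ContDiff ℝ ∞ U ∧ Effective U ∧
      ∀ (ds : List (Fin 4)) (p : ℝ × (Fin 3 → ℝ)) (j : Fin 3), mixedDeriv ds U p j =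
        ((L j).map fun F => F 0 (ds.count 0) p.1 * F 1 (ds.count 1) (p.2 0) *
          F 2 (ds.count 2) (p.2 1) * F 3 (ds.count 3) (p.2 2)).sum := by
  have hD : ∀ j, ∀ F ∈ L j, ∀ d, DTower (F d) := fun j F hF d => (hL j F hF d).dtower
  have e : U = sepField L 0 := by
    funext p j
    rw [hU, sepField, atomSum]
    congr 1
    apply List.map_congr_left
    intro F _
    rw [atomVal_eq]
    rfl
  subst e
  refine ⟨sepField_contDiff L hD 0, effective_sepField Q L hL, fun ds p j => ?_⟩
  rw [mixedDeriv_sepField L hD, sepField, atomSum]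
  congr 1
  apply List.map_congr_left
  intro F _
  rw [atomVal_eq]
  simp

end Crest.Agent.Helper5.BF
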